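import Vale.Agent.P110.Main

namespace Vale.Agent.Results.P110.Ultraflat

theorem result : ∀ c : ℝ, 0 < c → ∀ N₀ : ℕ, ∃ N : ℕ, N₀ ≤ N ∧ ∃ ε : Fin N → ℝ,
    (∀ k, ε k = 1 ∨ ε k = -1) ∧ ∀ z : ℂ, ‖z‖ = 1 →
      (1 - c) * Real.sqrt N ≤ ‖∑ k : Fin N, (ε k : ℂ) * z ^ (k : ℕ)‖ ∧
      ‖∑ k : Fin N, (ε k : ℂ) * z ^ (k : ℕ)‖ ≤ (1 + c) * Real.sqrt N := by
  intro c hc N₀
  obtain ⟨N, hN, ε, hε, h⟩ := Vale.Agent.P110.ultraflat hc N₀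
  refine ⟨N, hN, fun k => ε k, fun k => hε k, fun z hz => ?_⟩
  have := h z hz
  rw [Finset.sum_range, abs_le] at this
  constructor <;> linarith [this.1, this.2]

end Vale.Agent.Results.P110.Ultraflat
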